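import Vale.Agent.P011.H612.Germ.Ext
import Vale.Agent.P011.H74.Odd.IntT
import Vale.Agent.P011.H775.Odd.TopFF

/-!
**Change of the base field over function fields**: the module topology of a finite separable
extension of a function field is the topology of the places above the given ones.
-/

open Module Filter Topology

set_option linter.unusedSectionVars false
set_option linter.style.haveILetI false

namespace Vale.Agent.P011.H996.Odd

open Vale.Agent.P011.H677.GW
open Vale.Agent.P011.H775.Top
open Vale.Agent.P011.H738 Vale.Agent.P011.H271 Vale.Agent.P011.H271.S3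
open Vale.Agent.P011.H511.FF
open Vale.Agent.P011.H612.Germ (pA pA_nonneg pA_zero pA_neg pA_add pA_mul pA_smul_le Tad tad_topk)
open Vale.Agent.P011.H673.NS (OTIn NrOT)
open Vale.Agent.P011.H74.Odd (OT mem_OT itg_iff)
open Vale.Agent.P011.H699.Odd (Itg abv_itg)

/-! ### The elements which are integral at the places of `T` -/

section ot

variable {k : Type} [Field k]

/-- **The elements of `k` which are integral at the places of the finite set `T` form an integrally
closed subring with field of fractions `k`.** -/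
theorem otIn_ff (T : Finset (Place k)) : OTIn (OT (T : Set (Place k))) where
  frac := by
    classical
    intro a
    obtain ⟨t, ht0, ht⟩ := exists_small_ff T
    have h1 : ∀ v : T, ∃ m : ℕ, avF T v t ^ m < 1 / (avF T v a + 1) := fun v =>
      exists_pow_lt_of_lt_one (by
        have := (avF T v).nonneg a
        positivity) (ht v)
    choose m hm using h1
    have h2 : ∀ v : T, m v ≤ ∑ v : T, m v := fun v =>
      Finset.single_le_sum (f := m) (fun _ _ => Nat.zero_le _) (Finset.mem_univ v)
    refine ⟨t ^ (∑ v : T, m v), fun v hv => ?_, pow_ne_zero _ ht0, fun v hv => ?_⟩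
    · rw [map_pow]
      exact pow_le_one₀ (v.abv.nonneg t) (ht ⟨v, hv⟩).le
    · rw [map_mul, map_pow]
      have h3 := hm ⟨v, hv⟩
      change v.abv t ^ _ < 1 / (v.abv a + 1) at h3
      have h4 : v.abv t ^ (∑ v : T, m v) ≤ v.abv t ^ (m ⟨v, hv⟩) :=
        pow_le_pow_of_le_one (v.abv.nonneg t) (ht ⟨v, hv⟩).le (h2 ⟨v, hv⟩)
      have h5 := v.abv.nonneg a
      calc v.abv t ^ (∑ v : T, m v) * v.abv a ≤ 1 / (v.abv a + 1) * v.abv a :=
            mul_le_mul_of_nonneg_right (h4.trans h3.le) h5
        _ ≤ 1 := by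
            rw [div_mul_eq_mul_div, div_le_one (by positivity)]
            linarith
  int := by
    intro a ha v hv
    have h1 : Itg (OT (T : Set (Place k))) k a := ha
    exact abv_itg v.abv v.nonarch (fun c (hc : c ∈ OT (T : Set (Place k))) => hc v hv) h1

end ot

/-! ### The places above -/

section ext

variable {k Z : Type} [Field k] [Field Z] [Algebra k Z] [FiniteDimensional k Z]

/-- The finite set of the places above `T`. -/
theorem exists_abvF [GFF k] (T : Finset (Place k)) [hn : Nonempty T] :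
    ∃ T' : Finset (Place Z), Nonempty T' ∧ ∀ W, W ∈ T' ↔ ∃ v ∈ T, Ab W v := by
  classical
  haveI : GFF Z := Hey.H63.gff_of_finite (k := k)
  have hf : {W : Place Z | ∃ v ∈ T, Ab W v}.Finite := by
    refine (above_finite (K := Z) T.finite_toSet).subset ?_
    rintro W ⟨v, hv, hW⟩
    exact ⟨v, hv, av_of_ab hW⟩
  refine ⟨hf.toFinset, ?_, fun W => by rw [Set.Finite.mem_toFinset]; rfl⟩
  obtain ⟨v⟩ := hn
  obtain ⟨W, hW⟩ := exists_above_ab (K := Z) v.1
  exact ⟨⟨W, by rw [Set.Finite.mem_toFinset]; exact ⟨v.1, v.2, hW⟩⟩⟩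

variable (T : Finset (Place k)) (T' : Finset (Place Z)) [Nonempty T] [Nonempty T']

/-- **The topology of the places above is coarser than the module topology.** -/
theorem le_topkF (h : ∀ W, W ∈ T' ↔ ∃ v ∈ T, Ab W v) :
    (letI := topk (avF T); moduleTopology k Z) ≤ topk (avF T') := by
  classical
  letI tk := topk (avF T)
  letI tZ := topk (avF T')
  haveI := topk_isTopologicalDivisionRing (avF T)
  haveI := topk_isTopologicalDivisionRing (avF T')
  have hc0 : ContinuousAt (algebraMap k Z) 0 := by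
    rw [ContinuousAt, map_zero]
    intro U hU
    obtain ⟨ε, hε, hεU⟩ := (topk_mem_nhds_iff (avF T')).mp hU
    have h1 : ∀ p : T', ∃ δ : ℝ, 0 < δ ∧ ∀ c : k, (∀ q : T, avF T q c < δ) →
        avF T' p (algebraMap k Z c) < ε := by
      intro p
      obtain ⟨v, hv, hwv⟩ := (h p.1).mp p.2
      obtain ⟨δ, hδ, hδc⟩ := hwv.small hε
      exact ⟨δ, hδ, fun c hc => hδc c (hc ⟨v, hv⟩)⟩
    choose δ hδ hδc using h1
    obtain ⟨p0, hp0⟩ := Finite.exists_min δ
    refine (topk_mem_nhds_iff (avF T)).mpr ⟨δ p0, hδ p0, fun c hc => ?_⟩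
    refine hεU _ fun p => ?_
    rw [sub_zero]
    refine hδc p c fun q => ?_
    have h2 := hc q
    rw [sub_zero] at h2
    exact h2.trans_le (hp0 p)
  have hc : Continuous (algebraMap k Z) :=
    continuous_of_continuousAt_zero (algebraMap k Z).toAddMonoidHom hc0
  haveI : ContinuousSMul k Z := ⟨by
    have h1 : (fun p : k × Z => p.1 • p.2) = fun p => algebraMap k Z p.1 * p.2 :=
      funext fun p => Algebra.smul_def _ _
    rw [h1]
    exact (hc.comp continuous_fst).mul continuous_snd⟩
  exact moduleTopology_le k Z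

/-- The norm `pA` is compatible with the ring of the integral elements. -/
theorem nrOT_ff {A : Type} [Ring A] [Algebra k A] [FiniteDimensional k A] :
    NrOT (OT (T : Set (Place k))) (pA (avF T) : A → ℝ) where
  nonneg := pA_nonneg _
  zero := pA_zero _
  neg := pA_neg _
  add := pA_add _ (avF_nonarch T)
  mul := pA_mul _ (avF_nonarch T)
  smul := fun c hc x => by
    have h1 := pA_smul_le (avF T) c x (fun p => hc p.1 p.2) zero_le_one
    rwa [one_mul] at h1
  small := by
    intro δ hδ
    obtain ⟨t, ht0, ht⟩ := exists_small_ff T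
    obtain ⟨p0, hp0⟩ := Finite.exists_max fun p : T => avF T p t
    obtain ⟨m, hm⟩ := exists_pow_lt_of_lt_one hδ (ht p0)
    refine ⟨t ^ m, ?_, pow_ne_zero m ht0, fun x => ?_⟩
    · intro v hv
      rw [map_pow]
      exact pow_le_one₀ (v.abv.nonneg t) (ht ⟨v, hv⟩).le
    · refine pA_smul_le (avF T) _ x (fun p => ?_) hδ.le
      rw [map_pow]
      exact (pow_le_pow_left₀ ((avF T p).nonneg _) (hp0 p) m).trans hm.le

variable [GFF k] [Algebra.IsSeparable k Z]

/-- The elements which are integral at the places above are bounded. -/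
theorem exists_boundF (h : ∀ W, W ∈ T' ↔ ∃ v ∈ T, Ab W v) :
    ∃ C : ℝ, 0 ≤ C ∧ ∀ z : Z, (∀ p : T', avF T' p z ≤ 1) → pA (avF T) z ≤ C := by
  obtain ⟨C, hC, hCa⟩ := (nrOT_ff T (A := Z)).bdd (otIn_ff T) (AlgHom.id k Z)
  refine ⟨C, hC, fun z hz => hCa z ((itg_iff z).mpr fun v hv W hW => ?_)⟩
  exact hz ⟨W, (h W).mpr ⟨v, hv, hW⟩⟩

/-- **(F1) The module topology of a finite separable extension is the topology of the places
above.** -/
theorem topk_aboveF (h : ∀ W, W ∈ T' ↔ ∃ v ∈ T, Ab W v) :
    topk (avF T') = (letI := topk (avF T); moduleTopology k Z) := by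
  classical
  letI tk := topk (avF T)
  haveI hk := topk_isTopologicalDivisionRing (avF T)
  haveI hk' := topk_isTopologicalDivisionRing (avF T')
  have hTad : Tad (avF T) := tad_topk (avF T) (avF_nonarch T)
  have hg : @IsTopologicalAddGroup Z (moduleTopology k Z) _ := by
    letI := moduleTopology k Z
    haveI : IsModuleTopology k Z := ⟨rfl⟩
    haveI := IsModuleTopology.isTopologicalRing k Z
    infer_instance
  have hg' : @IsTopologicalAddGroup Z (topk (avF T')) _ := by
    letI := topk (avF T')
    infer_instance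
  refine IsTopologicalAddGroup.ext hg' hg ?_
  refine le_antisymm ?_ ?_
  · intro U hU
    obtain ⟨ε, hε, hεU⟩ := hTad.mem_zero.mp hU
    obtain ⟨C, hC, hCz⟩ := exists_boundF T T' h
    obtain ⟨t, ht0, ht⟩ := exists_small_ff T
    obtain ⟨p0, hp0⟩ := Finite.exists_max fun p : T => avF T p t
    have hC1 : 0 < ε / (C + 1) := by positivity
    obtain ⟨m, hm⟩ := exists_pow_lt_of_lt_one hC1 (ht p0)
    have ht0' : algebraMap k Z (t ^ m) ≠ 0 := (_root_.map_ne_zero _).mpr (pow_ne_zero m ht0)
    obtain ⟨q0, hq0⟩ := Finite.exists_min fun q : T' => avF T' q (algebraMap k Z (t ^ m))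
    refine (topk_mem_nhds_iff (avF T')).mpr ⟨_, AbsoluteValue.pos (avF T' q0) ht0', fun z hz => ?_⟩
    apply hεU
    have h1 : z = (t ^ m) • ((algebraMap k Z (t ^ m))⁻¹ * z) := by
      rw [Algebra.smul_def, mul_inv_cancel_left₀ ht0']
    have h2 : pA (avF T) ((algebraMap k Z (t ^ m))⁻¹ * z) ≤ C := by
      refine hCz _ fun q => ?_
      have h3 := hz q
      rw [sub_zero] at h3
      have h4 := h3.trans_le (hq0 q)
      rw [map_mul, map_inv₀, inv_mul_le_iff₀ (AbsoluteValue.pos _ ht0'), mul_one]
      exact h4.le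
    rw [h1]
    have h5 : pA (avF T) ((t ^ m) • ((algebraMap k Z (t ^ m))⁻¹ * z)) ≤
        (avF T p0 t) ^ m * pA (avF T) ((algebraMap k Z (t ^ m))⁻¹ * z) := by
      refine pA_smul_le (avF T) _ _ (fun p => ?_) (pow_nonneg ((avF T p0).nonneg _) m)
      rw [map_pow]
      exact pow_le_pow_left₀ ((avF T p).nonneg _) (hp0 p) m
    refine h5.trans_lt ?_
    have h6 := pA_nonneg (avF T) ((algebraMap k Z (t ^ m))⁻¹ * z)
    have h7 : (avF T p0 t) ^ m * pA (avF T) ((algebraMap k Z (t ^ m))⁻¹ * z) ≤
        ε / (C + 1) * C := mul_le_mul hm.le h2 h6 hC1.le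
    refine h7.trans_lt ?_
    rw [div_mul_eq_mul_div, div_lt_iff₀ (by positivity)]
    nlinarith
  · exact nhds_mono (le_topkF T T' h)

end ext

end Vale.Agent.P011.H996.Odd
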