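import Vale.Agent.P011.H996.Odd.RootP
import Vale.Agent.P011.H612.Germ.Nrm

/-!
The root trick over a field with the topology of finitely many nonarchimedean absolute values.
-/

open Module Filter Topology

namespace Vale.Agent.P011.H996.Odd

open Vale.Agent.P011.H677.GW (RootP nb)
open Vale.Agent.P011.H612.Germ (Tad)

variable {ι : Type} [Fintype ι] [Nonempty ι] {k : Type} [Field k] (a : ι → AbsoluteValue k ℝ)

/-- The largest of the absolute values. -/
noncomputable def qa (x : k) : ℝ := (Finset.univ : Finset ι).sup' Finset.univ_nonempty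
  fun i => a i x

theorem qa_le {x : k} {r : ℝ} : qa a x ≤ r ↔ ∀ i, a i x ≤ r := by
  unfold qa
  rw [Finset.sup'_le_iff]
  exact ⟨fun h i => h i (Finset.mem_univ _), fun h i _ => h i⟩

theorem qa_lt {x : k} {r : ℝ} : qa a x < r ↔ ∀ i, a i x < r := by
  unfold qa
  rw [Finset.sup'_lt_iff]
  exact ⟨fun h i => h i (Finset.mem_univ _), fun h i _ => h i⟩

theorem le_qa (x : k) (i : ι) : a i x ≤ qa a x := (qa_le a).mp le_rfl i

theorem qa_nonneg (x : k) : 0 ≤ qa a x :=
  (AbsoluteValue.nonneg (a (Classical.arbitrary ι)) x).trans (le_qa a x _)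

theorem un_qa (ha : ∀ i, IsNonarchimedean (a i)) : UN (qa a) where
  nonneg := qa_nonneg a
  zero := by
    refine le_antisymm ((qa_le a).mpr fun i => ?_) (qa_nonneg a 0)
    rw [map_zero]
  neg x := by
    unfold qa
    simp only [AbsoluteValue.map_neg]
  add x y := by
    rw [qa_le]
    exact fun i => (ha i x y).trans (max_le_max (le_qa a x i) (le_qa a y i))
  mul x y := by
    rw [qa_le]
    intro i
    rw [map_mul]
    exact mul_le_mul (le_qa a x i) (le_qa a y i) (AbsoluteValue.nonneg _ _) (qa_nonneg a x)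
  one := by
    rw [qa_le]
    intro i
    rw [map_one]

theorem qa_one : qa a 1 = 1 := by
  refine le_antisymm ((qa_le a).mpr fun i => (map_one (a i)).le) ?_
  have h1 := le_qa a 1 (Classical.arbitrary ι)
  rwa [map_one] at h1

theorem hasBasis_qa [TopologicalSpace k] (h : Tad a) :
    (𝓝 (0 : k)).HasBasis (fun ε : ℝ => 0 < ε) fun ε => {x | qa a x < ε} := by
  constructor
  intro U
  rw [h.nhds 0 U]
  constructor
  · rintro ⟨ε, hε, hU⟩
    refine ⟨ε, hε, fun x hx => hU x fun i => ?_⟩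
    rw [sub_zero]
    exact (qa_lt a).mp hx i
  · rintro ⟨ε, hε, hU⟩
    refine ⟨ε, hε, fun x hx => hU ((qa_lt a).mpr fun i => ?_)⟩
    have h1 := hx i
    rwa [sub_zero] at h1

/-- **The root trick** (612's letters). -/
theorem rootP_tad [Infinite k] [TopologicalSpace k] [IsTopologicalDivisionRing k] [T2Space k]
    (h : Tad a) {M : ℕ} (hM : (M : k) ≠ 0) : RootP k M :=
  rootP (un_qa a h.na) (qa_one a) (hasBasis_qa a h) hM

/-- **The Frobenius trick** (612's letters). -/
theorem frobP_tad [TopologicalSpace k] [IsTopologicalDivisionRing k] [T2Space k] (h : Tad a)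
    {ℓ : ℕ} (hℓ : ℓ.Prime) [CharP k ℓ] {M : ℕ} (hM : Nat.Coprime ℓ M) {C : Type}
    [DivisionRing C] [Algebra k C] [FiniteDimensional k C] {V : Set C} (hV : V ∈ nb k C) :
    ∀ᶠ t in nb k C, ∀ O ∈ nb k C, ∃ N : ℕ, Nat.Coprime N M ∧ (∀ i : ℕ, t ^ i ∈ V) ∧
      t ^ N ∈ O :=
  frobP (un_qa a h.na) (hasBasis_qa a h) hℓ hM hV

end Vale.Agent.P011.H996.Odd
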