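import Mathlib

/-!
The formal end: a homomorphism on a subgroup stable under the involution which kills the symmetric
elements and the elements of norm one, and whose odd power factors through the centre, kills every
element whose norm is fixed by the involution.
-/

namespace Vale.Agent.P011.H996.Odd

section group

variable {G Z E : Type*} [Group G] [StarMul G] [MulOneClass Z] [CommGroup E]

/-- The formal end, over a group with an anti-involution. `N` is the norm, `H` the subgroup on which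
the homomorphism `Ψ` is given. -/
theorem eq_one_of_norm_fixed {H : Subgroup G} (hH : ∀ g ∈ H, star g ∈ H) (Ψ : G → E)
    (hmul : ∀ x ∈ H, ∀ y ∈ H, Ψ (x * y) = Ψ x * Ψ y)
    (hsym : ∀ s ∈ H, star s = s → Ψ s = 1) (N : G →* Z) (hone : ∀ t ∈ H, N t = 1 → Ψ t = 1)
    {n : ℕ} (hn : Odd n) {h : G} (hh : h ∈ H) (hN : N (star h) = N h) (hpow : Ψ h ^ n = 1) :
    Ψ h = 1 := by
  have h1 : Ψ h * Ψ (star h) = 1 := by
    rw [← hmul h hh _ (hH h hh)]
    exact hsym _ (H.mul_mem hh (hH h hh)) (by rw [star_mul, star_star])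
  have h2 : Ψ (star h) = Ψ h := by
    have h3 : Ψ (h⁻¹ * star h) = 1 := by
      refine hone _ (H.mul_mem (H.inv_mem hh) (hH h hh)) ?_
      rw [map_mul, hN, ← map_mul, inv_mul_cancel, map_one]
    have h4 : Ψ (h * (h⁻¹ * star h)) = Ψ h * 1 := by
      rw [hmul h hh _ (H.mul_mem (H.inv_mem hh) (hH h hh)), h3]
    rwa [mul_inv_cancel_left, mul_one] at h4
  rw [h2, ← sq] at h1
  obtain ⟨k, rfl⟩ := hn
  rwa [pow_succ, pow_mul, h1, one_pow, one_mul] at hpow

end group

section divisionRing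

variable {D F E : Type*} [DivisionRing D] [StarRing D] [MulOneClass F] [CommGroup E]

/-- The same for a set of nonzero elements of a division ring with involution. -/
theorem eq_one_of_nrd_fixed {H : Set D} (H0 : ∀ x ∈ H, x ≠ 0)
    (Hmul : ∀ x ∈ H, ∀ y ∈ H, x * y ∈ H) (Hinv : ∀ x ∈ H, x⁻¹ ∈ H) (Hstar : ∀ x ∈ H, star x ∈ H)
    (Ψ : D → E) (hmul : ∀ x ∈ H, ∀ y ∈ H, Ψ (x * y) = Ψ x * Ψ y)
    (hsym : ∀ s ∈ H, star s = s → Ψ s = 1) (N : D → F) (hNmul : ∀ x y, N (x * y) = N x * N y)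
    (hNone : N 1 = 1) (hone : ∀ t ∈ H, N t = 1 → Ψ t = 1)
    {n : ℕ} (hn : Odd n) {h : D} (hh : h ∈ H) (hN : N (star h) = N h) (hpow : Ψ h ^ n = 1) :
    Ψ h = 1 := by
  have h1 : Ψ h * Ψ (star h) = 1 := by
    rw [← hmul h hh _ (Hstar h hh)]
    exact hsym _ (Hmul _ hh _ (Hstar h hh)) (by rw [star_mul, star_star])
  have h2 : Ψ (star h) = Ψ h := by
    have h3 : Ψ (h⁻¹ * star h) = 1 := by
      refine hone _ (Hmul _ (Hinv h hh) _ (Hstar h hh)) ?_
      rw [hNmul, hN, ← hNmul, inv_mul_cancel₀ (H0 h hh), hNone]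
    have h4 : Ψ (h * (h⁻¹ * star h)) = Ψ h * 1 := by
      rw [hmul h hh _ (Hmul _ (Hinv h hh) _ (Hstar h hh)), h3]
    rwa [mul_inv_cancel_left₀ (H0 h hh), mul_one] at h4
  rw [h2, ← sq] at h1
  obtain ⟨k, rfl⟩ := hn
  rwa [pow_succ, pow_mul, h1, one_pow, one_mul] at hpow

end divisionRing

end Vale.Agent.P011.H996.Odd
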