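import Mathlib

/-!
Approximate roots near one in a field with a submultiplicative ultrametric norm, by Newton's
method, with a radius which depends only on the norm of the inverse of the exponent.
-/

open Polynomial

namespace Vale.Agent.P011.H996.Odd

/-- A submultiplicative ultrametric norm on a ring. -/
structure UN {D : Type*} [Ring D] (p : D → ℝ) : Prop where
  nonneg : ∀ x, 0 ≤ p x
  zero : p 0 = 0
  neg : ∀ x, p (-x) = p x
  add : ∀ x y, p (x + y) ≤ max (p x) (p y)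
  mul : ∀ x y, p (x * y) ≤ p x * p y
  one : p 1 ≤ 1

namespace UN

section ring

variable {D : Type*} [Ring D] {p : D → ℝ} (hp : UN p)

include hp

theorem sub (x y : D) : p (x - y) ≤ max (p x) (p y) := by
  rw [sub_eq_add_neg, ← hp.neg y]
  exact hp.add _ _

theorem symm (x y : D) : p (x - y) = p (y - x) := by
  rw [← hp.neg (x - y), neg_sub]

theorem le_one {x : D} (hx : p (x - 1) ≤ 1) : p x ≤ 1 := by
  have h := hp.add (x - 1) 1
  rw [sub_add_cancel] at h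
  exact h.trans (max_le hx hp.one)

theorem mul_le {x y : D} {a b : ℝ} (hx : p x ≤ a) (hy : p y ≤ b) : p (x * y) ≤ a * b :=
  (hp.mul x y).trans (mul_le_mul hx hy (hp.nonneg y) ((hp.nonneg x).trans hx))

theorem mul_le_one {x y : D} (hx : p x ≤ 1) (hy : p y ≤ 1) : p (x * y) ≤ 1 :=
  (hp.mul x y).trans (mul_le_one₀ hx (hp.nonneg y) hy)

theorem pow_le_one {x : D} (hx : p x ≤ 1) (n : ℕ) : p (x ^ n) ≤ 1 := by
  induction n with
  | zero => rw [pow_zero]; exact hp.one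
  | succ n ih => rw [pow_succ]; exact hp.mul_le_one ih hx

/-- Products of elements near one. -/
theorem near_mul {ε : ℝ} (hε : ε ≤ 1) {x y : D} (hx : p (x - 1) < ε) (hy : p (y - 1) < ε) :
    p (x * y - 1) < ε := by
  have h1 : x * y - 1 = x * (y - 1) + (x - 1) := by noncomm_ring
  rw [h1]
  refine (hp.add _ _).trans_lt (max_lt ?_ hx)
  calc p (x * (y - 1)) ≤ 1 * p (y - 1) := hp.mul_le (hp.le_one (hx.le.trans hε)) le_rfl
    _ < ε := by rwa [one_mul]

theorem near_pow {ε : ℝ} (hε0 : 0 < ε) (hε : ε ≤ 1) {x : D} (hx : p (x - 1) < ε) (n : ℕ) :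
    p (x ^ n - 1) < ε := by
  induction n with
  | zero => rw [pow_zero, sub_self, hp.zero]; exact hε0
  | succ n ih => rw [pow_succ]; exact hp.near_mul hε ih hx

theorem pow_sub_one_le {x : D} (hx : p (x - 1) ≤ 1) (n : ℕ) : p (x ^ n - 1) ≤ p (x - 1) := by
  induction n with
  | zero => rw [pow_zero, sub_self, hp.zero]; exact hp.nonneg _
  | succ n ih =>
    have h2 : x ^ (n + 1) - 1 = x ^ n * (x - 1) + (x ^ n - 1) := by rw [pow_succ]; noncomm_ring
    rw [h2]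
    refine (hp.add _ _).trans (max_le ?_ ih)
    calc p (x ^ n * (x - 1)) ≤ 1 * p (x - 1) := hp.mul_le (hp.pow_le_one (hp.le_one hx) n) le_rfl
      _ = p (x - 1) := one_mul _

/-- The integers. -/
def intRing : Subring D where
  carrier := {x | p x ≤ 1}
  mul_mem' := fun ha hb => hp.mul_le_one ha hb
  one_mem' := hp.one
  add_mem' := fun {a b} ha hb => (hp.add a b).trans (max_le ha hb)
  zero_mem' := by
    change p 0 ≤ 1
    rw [hp.zero]
    exact zero_le_one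
  neg_mem' := by
    intro a ha
    change p (-a) ≤ 1
    rw [hp.neg]
    exact ha

/-- Restriction along a ring homomorphism. -/
theorem comp {L : Type*} [Ring L] (j : L →+* D) : UN fun x => p (j x) where
  nonneg x := hp.nonneg _
  zero := by rw [map_zero, hp.zero]
  neg x := by rw [map_neg, hp.neg]
  add x y := by rw [map_add]; exact hp.add _ _
  mul x y := by rw [map_mul]; exact hp.mul _ _
  one := by rw [map_one]; exact hp.one

end ring

section divisionRing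

variable {D : Type*} [DivisionRing D] {p : D → ℝ} (hp : UN p)

include hp

theorem ne_zero_of_near {x : D} (hx : p (x - 1) < 1) (h1 : p 1 = 1) : x ≠ 0 := by
  rintro rfl
  rw [zero_sub, hp.neg, h1] at hx
  exact absurd hx (lt_irrefl _)

/-- The norm of an inverse near one. -/
theorem inv_le_one {x : D} (hx : p (x - 1) < 1) : p x⁻¹ ≤ 1 := by
  rcases eq_or_ne x 0 with rfl | hx0
  · rw [inv_zero, hp.zero]
    exact zero_le_one
  have h1 : x⁻¹ = 1 - (x - 1) * x⁻¹ := by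
    rw [sub_mul, mul_inv_cancel₀ hx0, one_mul]
    abel
  by_contra hcon
  push Not at hcon
  have h2 : p x⁻¹ ≤ max (p 1) (p ((x - 1) * x⁻¹)) := by
    conv_lhs => rw [h1]
    exact hp.sub _ _
  rcases le_max_iff.mp h2 with h | h
  · exact absurd (h.trans hp.one) (not_le.mpr hcon)
  · have h3 : p ((x - 1) * x⁻¹) < p x⁻¹ := by
      calc p ((x - 1) * x⁻¹) ≤ p (x - 1) * p x⁻¹ := hp.mul _ _
        _ < 1 * p x⁻¹ := mul_lt_mul_of_pos_right hx (zero_lt_one.trans hcon)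
        _ = p x⁻¹ := one_mul _
    exact absurd (h.trans_lt h3) (lt_irrefl _)

theorem near_inv {ε : ℝ} (hε : ε ≤ 1) {x : D} (hx0 : x ≠ 0) (hx : p (x - 1) < ε) :
    p (x⁻¹ - 1) < ε := by
  have h1 : x⁻¹ - 1 = -((x - 1) * x⁻¹) := by
    rw [sub_mul, mul_inv_cancel₀ hx0, one_mul]
    abel
  rw [h1, hp.neg]
  calc p ((x - 1) * x⁻¹) ≤ p (x - 1) * 1 := hp.mul_le le_rfl (hp.inv_le_one (hx.trans_le hε))
    _ < ε := by rwa [mul_one]

end divisionRing

section field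

variable {L : Type*} [Field L] {p : L → ℝ} (hp : UN p)

include hp

/-- One step of Newton's method. -/
theorem newton_step {N : ℕ} (hN0 : (N : L) ≠ 0) {x t : L} (hx0 : x ≠ 0) (hx : p (x - 1) < 1)
    (ht : p t ≤ 1) {q : ℝ} (hq : p (N : L)⁻¹ ≤ q) {r : ℝ} (hr : p (x ^ N - t) ≤ r)
    (hrN : q * r ≤ 1) :
    p (x - (x ^ N - t) * (N : L)⁻¹ * (x⁻¹) ^ (N - 1) - x) ≤ q * r ∧
      p ((x - (x ^ N - t) * (N : L)⁻¹ * (x⁻¹) ^ (N - 1)) ^ N - t) ≤ (q * r) ^ 2 := by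
  have hr0 : 0 ≤ r := (hp.nonneg _).trans hr
  have hq0 : 0 ≤ q := (hp.nonneg _).trans hq
  obtain ⟨h, hh⟩ : ∃ h, h = -((x ^ N - t) * (N : L)⁻¹ * (x⁻¹) ^ (N - 1)) := ⟨_, rfl⟩
  have hvh : p h ≤ q * r := by
    rw [hh, hp.neg]
    calc p ((x ^ N - t) * (N : L)⁻¹ * (x⁻¹) ^ (N - 1))
        ≤ (r * q) * 1 := hp.mul_le (hp.mul_le hr hq) (hp.pow_le_one (hp.inv_le_one hx) _)
      _ = q * r := by ring
  have hx' : x - (x ^ N - t) * (N : L)⁻¹ * (x⁻¹) ^ (N - 1) = x + h := by rw [hh]; ring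
  rw [hx']
  have hh1 : p h ≤ 1 := hvh.trans hrN
  refine ⟨by rw [add_sub_cancel_left]; exact hvh, ?_⟩
  let O := hp.intRing
  let xO : O := ⟨x, hp.le_one hx.le⟩
  let tO : O := ⟨t, ht⟩
  let hO : O := ⟨h, hh1⟩
  obtain ⟨k, hk⟩ := Polynomial.binomExpansion (X ^ N - C tO : O[X]) xO hO
  have hk' := congrArg (O.subtype) hk
  simp only [eval_sub, eval_pow, eval_X, eval_C, derivative_X_pow, derivative_C,
    sub_zero, eval_mul, map_sub, map_add, map_mul, map_pow, eval_natCast, map_natCast] at hk'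
  have e1 : (x + h) ^ N - t = (x ^ N - t) + (N * x ^ (N - 1)) * h + (k : L) * h ^ 2 := hk'
  have e2 : (N * x ^ (N - 1)) * h = -(x ^ N - t) := by
    have h3 : x ^ (N - 1) * (x⁻¹) ^ (N - 1) = 1 := by
      rw [← mul_pow, mul_inv_cancel₀ hx0, one_pow]
    rw [hh]
    calc (N : L) * x ^ (N - 1) * -((x ^ N - t) * (N : L)⁻¹ * (x⁻¹) ^ (N - 1))
        = -((x ^ N - t) * ((N : L) * (N : L)⁻¹) * (x ^ (N - 1) * (x⁻¹) ^ (N - 1))) := by ring
      _ = -(x ^ N - t) := by rw [h3, mul_inv_cancel₀ hN0, mul_one, mul_one]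
  rw [e1, e2, add_neg_cancel, zero_add]
  have hk1 : p (k : L) ≤ 1 := k.2
  rw [sq h]
  calc p ((k : L) * (h * h)) ≤ 1 * (q * r * (q * r)) := hp.mul_le hk1 (hp.mul_le hvh hvh)
    _ = (q * r) ^ 2 := by ring

theorem exists_root_aux (h1 : p 1 = 1) {N : ℕ} (hN0 : (N : L) ≠ 0) {ε δ q : ℝ}
    (hq1 : 1 ≤ q) (hq : p (N : L)⁻¹ ≤ q) (hδ : 0 < δ) (hδ1 : 2 * q ^ 2 * δ ≤ 1)
    (h2 : q * δ < ε) (hε : ε ≤ 1) {t : L} (ht : p (t - 1) ≤ δ) (k : ℕ) :
    ∃ x : L, p (x - 1) < ε ∧ p (x ^ N - t) ≤ δ * (1 / 2) ^ k := by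
  have hε0 : 0 < ε := lt_of_le_of_lt (by positivity) h2
  have hδ2 : δ ≤ 1 := by nlinarith
  have ht1 : p t ≤ 1 := hp.le_one (ht.trans hδ2)
  induction k with
  | zero =>
    refine ⟨1, by rw [sub_self, hp.zero]; exact hε0, ?_⟩
    rw [one_pow, pow_zero, mul_one, hp.symm]
    exact ht
  | succ k ih =>
    obtain ⟨x, hx, hxt⟩ := ih
    obtain ⟨r, hr⟩ : ∃ r, r = δ * (1 / 2) ^ k := ⟨_, rfl⟩
    rw [← hr] at hxt
    have hr0 : 0 < r := by rw [hr]; positivity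
    have hrδ : r ≤ δ := by
      rw [hr]
      have h3 : ((1 : ℝ) / 2) ^ k ≤ 1 := pow_le_one₀ (by norm_num) (by norm_num)
      nlinarith
    have hqr : q * r ≤ 1 := by nlinarith
    obtain ⟨h3, h4⟩ := hp.newton_step hN0 (hp.ne_zero_of_near (hx.trans_le hε) h1)
      (hx.trans_le hε) ht1 hq hxt hqr
    refine ⟨_, ?_, h4.trans ?_⟩
    · have h5 : x - (x ^ N - t) * (N : L)⁻¹ * (x⁻¹) ^ (N - 1) - 1 =
          (x - (x ^ N - t) * (N : L)⁻¹ * (x⁻¹) ^ (N - 1) - x) + (x - 1) := by ring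
      rw [h5]
      refine (hp.add _ _).trans_lt (max_lt (h3.trans_lt ?_) hx)
      calc q * r ≤ q * δ := by gcongr
        _ < ε := h2
    · rw [pow_succ (1 / 2 : ℝ) k, ← mul_assoc, ← hr]
      have h6 : q ^ 2 * r ≤ 1 / 2 := by
        have : q ^ 2 * r ≤ q ^ 2 * δ := by gcongr
        linarith
      calc (q * r) ^ 2 = (q ^ 2 * r) * r := by ring
        _ ≤ (1 / 2) * r := by gcongr
        _ = r * (1 / 2) := by ring

/-- **Approximate roots near one.** -/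
theorem exists_root (h1 : p 1 = 1) {N : ℕ} (hN0 : (N : L) ≠ 0) {ε δ q : ℝ}
    (hq1 : 1 ≤ q) (hq : p (N : L)⁻¹ ≤ q) (hδ : 0 < δ) (hδ1 : 2 * q ^ 2 * δ ≤ 1)
    (h2 : q * δ < ε) (hε : ε ≤ 1) {t : L} (ht : p (t - 1) ≤ δ) {η : ℝ} (hη : 0 < η) :
    ∃ x : L, p (x - 1) < ε ∧ p (x ^ N - t) < η := by
  obtain ⟨k, hk⟩ := exists_pow_lt_of_lt_one (div_pos hη hδ) (show (1 / 2 : ℝ) < 1 by norm_num)
  obtain ⟨x, hx, hxt⟩ := hp.exists_root_aux h1 hN0 hq1 hq hδ hδ1 h2 hε ht k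
  refine ⟨x, hx, hxt.trans_lt ?_⟩
  rw [lt_div_iff₀ hδ] at hk
  linarith

/-- An element near one whose power is nearer to one is itself nearer to one. -/
theorem near_of_pow_near (h1 : p 1 = 1) {N : ℕ} (hN0 : (N : L) ≠ 0) {q : ℝ}
    (hq : p (N : L)⁻¹ ≤ q) {w : L} (hw : q * p (w - 1) < 1) (hw1 : p (w - 1) < 1) :
    p (w - 1) ≤ q * p (w ^ N - 1) := by
  have hq0 : 0 ≤ q := (hp.nonneg _).trans hq
  obtain ⟨S, hS⟩ : ∃ S, S = ∑ i ∈ Finset.range N, w ^ i := ⟨_, rfl⟩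
  obtain ⟨R, hR⟩ : ∃ R, R = ∑ i ∈ Finset.range N, (w ^ i - 1) := ⟨_, rfl⟩
  have h2 : w ^ N - 1 = (w - 1) * S := by
    rw [hS, mul_comm, geom_sum_mul]
  have h3 : S = (N : L) + R := by
    rw [hS, hR, Finset.sum_sub_distrib, Finset.sum_const, Finset.card_range, nsmul_eq_mul, mul_one]
    ring
  have h4 : p R ≤ p (w - 1) := by
    rw [hR]
    have : ∀ s : Finset ℕ, p (∑ i ∈ s, (w ^ i - 1)) ≤ p (w - 1) := by
      intro s
      induction s using Finset.induction_on with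
      | empty => rw [Finset.sum_empty, hp.zero]; exact hp.nonneg _
      | insert a s ha ih =>
        rw [Finset.sum_insert ha]
        exact (hp.add _ _).trans (max_le (hp.pow_sub_one_le hw1.le a) ih)
    exact this _
  obtain ⟨V, hV⟩ : ∃ V, V = S * (N : L)⁻¹ := ⟨_, rfl⟩
  have hV1 : p (V - 1) < 1 := by
    have h5 : V - 1 = R * (N : L)⁻¹ := by
      rw [hV, h3, add_mul, mul_inv_cancel₀ hN0]
      ring
    rw [h5]
    calc p (R * (N : L)⁻¹) ≤ p (w - 1) * q := hp.mul_le h4 hq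
      _ < 1 := by rwa [mul_comm]
  have hV0 : V ≠ 0 := hp.ne_zero_of_near hV1 h1
  have h6 : w - 1 = (w ^ N - 1) * V⁻¹ * (N : L)⁻¹ := by
    have h7 : S = V * (N : L) := by rw [hV, mul_assoc, inv_mul_cancel₀ hN0, mul_one]
    rw [h2, h7]
    field_simp
  calc p (w - 1) = p ((w ^ N - 1) * V⁻¹ * (N : L)⁻¹) := by rw [← h6]
    _ ≤ (p (w ^ N - 1) * 1) * q := hp.mul_le (hp.mul_le le_rfl (hp.inv_le_one hV1)) hq
    _ = q * p (w ^ N - 1) := by ring

end field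

end UN

end Vale.Agent.P011.H996.Odd
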