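import Vale.Agent.P011.H996.Odd.RootTrick
import Vale.Agent.P011.H677.GW.Frame

/-!
The root trick in the frame of Wang's theorem near one: the base field has a submultiplicative
ultrametric norm which defines its topology.
-/

open Module Filter Topology

namespace Vale.Agent.P011.H996.Odd

open Vale.Agent.P011.W (HasNrd)
open Vale.Agent.P011.H677.GW (nb nb_lin nb_comap nb_alg RootP)
open Vale.Agent.P011.H505.Wang (exists_galois_split')

theorem UN.sum {R : Type*} [Ring R] {q : R → ℝ} (hq : UN q) {ι : Type*} (s : Finset ι)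
    (f : ι → R) {a : ℝ} (ha : 0 ≤ a) (h : ∀ i ∈ s, q (f i) ≤ a) : q (∑ i ∈ s, f i) ≤ a := by
  classical
  induction s using Finset.induction_on with
  | empty => rw [Finset.sum_empty, hq.zero]; exact ha
  | insert i s hi ih =>
    rw [Finset.sum_insert hi]
    exact (hq.add _ _).trans (max_le (h i (Finset.mem_insert_self i s))
      (ih fun j hj => h j (Finset.mem_insert_of_mem hj)))

section norm

variable {k : Type} [Field k] {q : k → ℝ} {C : Type} [Ring C] [Algebra k C] {r : ℕ} [NeZero r]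
  (b : Basis (Fin r) k C)

/-- The norm of the matrix of the left multiplication. -/
noncomputable def mn (q : k → ℝ) (b : Basis (Fin r) k C) (x : C) : ℝ :=
  (Finset.univ : Finset (Fin r × Fin r)).sup' Finset.univ_nonempty
    fun ij => q (Algebra.leftMulMatrix b x ij.1 ij.2)

theorem mn_le {x : C} {a : ℝ} : mn q b x ≤ a ↔ ∀ i j, q (Algebra.leftMulMatrix b x i j) ≤ a := by
  unfold mn
  rw [Finset.sup'_le_iff]
  exact ⟨fun h i j => h (i, j) (Finset.mem_univ _), fun h ij _ => h ij.1 ij.2⟩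

theorem mn_lt {x : C} {a : ℝ} : mn q b x < a ↔ ∀ i j, q (Algebra.leftMulMatrix b x i j) < a := by
  unfold mn
  rw [Finset.sup'_lt_iff]
  exact ⟨fun h i j => h (i, j) (Finset.mem_univ _), fun h ij _ => h ij.1 ij.2⟩

theorem le_mn (x : C) (i j : Fin r) : q (Algebra.leftMulMatrix b x i j) ≤ mn q b x :=
  (mn_le b).mp le_rfl i j

variable (hq : UN q)

include hq

theorem mn_nonneg (x : C) : 0 ≤ mn q b x := (hq.nonneg _).trans (le_mn b x 0 0)

theorem un_mn : UN (mn q b) where
  nonneg := mn_nonneg b hq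
  zero := by
    refine le_antisymm ((mn_le b).mpr fun i j => ?_) (mn_nonneg b hq 0)
    rw [map_zero, Matrix.zero_apply, hq.zero]
  neg x := by
    unfold mn
    simp only [map_neg, Matrix.neg_apply, hq.neg]
  add x y := by
    rw [mn_le]
    intro i j
    rw [map_add, Matrix.add_apply]
    exact (hq.add _ _).trans (max_le_max (le_mn b x i j) (le_mn b y i j))
  mul x y := by
    rw [mn_le]
    intro i j
    rw [map_mul, Matrix.mul_apply]
    refine hq.sum _ _ (mul_nonneg (mn_nonneg b hq x) (mn_nonneg b hq y)) fun l _ => ?_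
    exact hq.mul_le (le_mn b x i l) (le_mn b y l j)
  one := by
    rw [mn_le]
    intro i j
    rw [map_one, Matrix.one_apply]
    split_ifs
    · exact hq.one
    · rw [hq.zero]
      exact zero_le_one

theorem mn_one (hq1 : q 1 = 1) : mn q b 1 = 1 := by
  refine le_antisymm (un_mn b hq).one ?_
  have h1 := le_mn (q := q) b 1 0 0
  rwa [map_one, Matrix.one_apply_eq, hq1] at h1

/-- The coordinates are small when the norm is. -/
theorem repr_le (x : C) (i : Fin r) :
    q (b.repr x i) ≤ mn q b x * (1 + ∑ j, q (b.repr 1 j)) := by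
  have h1 := Algebra.leftMulMatrix_mulVec_repr b x 1
  rw [mul_one] at h1
  have h2 : b.repr x i = ∑ j, Algebra.leftMulMatrix b x i j * b.repr 1 j := by
    have h3 := congrFun h1 i
    rw [← h3]
    rfl
  have h4 : ∀ j, q (b.repr 1 j) ≤ 1 + ∑ j, q (b.repr 1 j) := by
    intro j
    have h5 : q (b.repr 1 j) ≤ ∑ j, q (b.repr 1 j) :=
      Finset.single_le_sum (f := fun j => q (b.repr 1 j)) (fun j _ => hq.nonneg _)
        (Finset.mem_univ j)
    linarith
  have h6 : 0 ≤ 1 + ∑ j, q (b.repr 1 j) := (hq.nonneg _).trans (h4 0)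
  rw [h2]
  exact hq.sum _ _ (mul_nonneg (mn_nonneg b hq x) h6) fun j _ => hq.mul_le (le_mn b x i j) (h4 j)

end norm

section top

set_option linter.unusedSectionVars false

variable {k : Type} [Field k] [TopologicalSpace k] [IsTopologicalDivisionRing k] [T2Space k]
  {q : k → ℝ} (hq : UN q)
  (hb : (𝓝 (0 : k)).HasBasis (fun ε : ℝ => 0 < ε) fun ε => {x | q x < ε})

include hb

theorem ball_mem (c : k) {ε : ℝ} (hε : 0 < ε) : {x : k | q (x - c) < ε} ∈ 𝓝 c := by
  have h1 : Tendsto (fun x : k => x - c) (𝓝 c) (𝓝 0) := by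
    have h2 : Continuous fun x : k => x - c := by fun_prop
    have h3 := h2.tendsto c
    rwa [sub_self] at h3
  exact h1 (hb.mem_of_mem hε)

theorem exists_ball {c : k} {V : Set k} (hV : V ∈ 𝓝 c) :
    ∃ ε : ℝ, 0 < ε ∧ ∀ x, q (x - c) < ε → x ∈ V := by
  have h1 : Tendsto (fun x : k => x + c) (𝓝 0) (𝓝 c) := by
    have h2 : Continuous fun x : k => x + c := by fun_prop
    have h3 := h2.tendsto 0
    rwa [zero_add] at h3
  obtain ⟨ε, hε, h⟩ := hb.mem_iff.mp (h1 hV)
  refine ⟨ε, hε, fun x hx => ?_⟩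
  have h4 := h hx
  change x - c + c ∈ V at h4
  rwa [sub_add_cancel] at h4

variable {C : Type} [Ring C] [Algebra k C] {r : ℕ} [NeZero r] (b : Basis (Fin r) k C)

theorem mn_mem {ε : ℝ} (hε : 0 < ε) : {x : C | mn q b (x - 1) < ε} ∈ nb k C := by
  let tC : TopologicalSpace C := moduleTopology k C
  have hC : IsModuleTopology k C := ⟨rfl⟩
  have h1 : ∀ i j, ∀ᶠ x in @nhds C tC 1, q (Algebra.leftMulMatrix b (x - 1) i j) < ε := by
    intro i j
    let l : C →ₗ[k] k := (Matrix.entryLinearMap k k i j).comp (Algebra.leftMulMatrix b).toLinearMap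
    have hl : Continuous l := IsModuleTopology.continuous_of_linearMap l
    have h2 := (hl.tendsto 1) (ball_mem hb (l 1) hε)
    refine Filter.mem_of_superset h2 fun x hx => ?_
    change q (l x - l 1) < ε at hx
    rw [← map_sub] at hx
    exact hx
  have h2 : ∀ᶠ x in @nhds C tC 1, ∀ i j, q (Algebra.leftMulMatrix b (x - 1) i j) < ε :=
    Filter.eventually_all.mpr fun i => Filter.eventually_all.mpr fun j => h1 i j
  exact Filter.mem_of_superset h2 fun x hx => (mn_lt b).mpr hx

include hq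

theorem exists_mn {V : Set C} (hV : V ∈ nb k C) :
    ∃ ε : ℝ, 0 < ε ∧ ∀ x, mn q b (x - 1) < ε → x ∈ V := by
  let tC : TopologicalSpace C := moduleTopology k C
  have hC : IsModuleTopology k C := ⟨rfl⟩
  have hadd : ContinuousAdd C := IsModuleTopology.toContinuousAdd k C
  have hsmul : ContinuousSMul k C := IsModuleTopology.toContinuousSMul k C
  let e : (Fin r → k) →ₗ[k] C := (b.equivFun.symm : _ →ₗ[k] C)
  have he : Continuous e := IsModuleTopology.continuous_of_linearMap e
  let a : Fin r → k := b.equivFun 1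
  have hea : e a = 1 := b.equivFun.symm_apply_apply 1
  have h1 : e ⁻¹' V ∈ 𝓝 a := by
    have h2 := he.tendsto a
    rw [hea] at h2
    exact h2 hV
  rw [nhds_pi, Filter.mem_pi'] at h1
  obtain ⟨I, t, ht, hI⟩ := h1
  choose ε' hε'0 hε' using fun i => exists_ball hb (ht i)
  let ε₁ := (Finset.univ : Finset (Fin r)).inf' Finset.univ_nonempty ε'
  have hε₁ : 0 < ε₁ := (Finset.lt_inf'_iff _).mpr fun i _ => hε'0 i
  have hc : 0 < 1 + ∑ j, q (b.repr 1 j) := by
    have h3 : 0 ≤ ∑ j, q (b.repr 1 j) := Finset.sum_nonneg fun j _ => hq.nonneg _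
    linarith
  refine ⟨ε₁ / (1 + ∑ j, q (b.repr 1 j)), div_pos hε₁ hc, fun x hx => ?_⟩
  have h4 : b.equivFun x ∈ e ⁻¹' V := by
    refine hI fun i _ => hε' i _ ?_
    have h5 := repr_le b hq (x - 1) i
    have h6 : q (b.equivFun x i - a i) = q (b.repr (x - 1) i) := by
      rw [map_sub, Finsupp.sub_apply]
      rfl
    rw [h6]
    refine h5.trans_lt ?_
    rw [lt_div_iff₀ hc] at hx
    exact hx.trans_le (Finset.inf'_le _ (Finset.mem_univ i))
  have h5 : e (b.equivFun x) = x := b.equivFun.symm_apply_apply x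
  have h6 : e (b.equivFun x) ∈ V := h4
  rwa [h5] at h6

end top

section nrd

set_option linter.unusedSectionVars false

variable {k : Type} [Field k] [TopologicalSpace k] [IsTopologicalDivisionRing k] [T2Space k]
variable {Z : Type} [Field Z] [Algebra k Z] [FiniteDimensional k Z] {C : Type} [DivisionRing C]
  [Algebra Z C] [Algebra k C] [IsScalarTower k Z C] [FiniteDimensional Z C]
  [Algebra.IsCentral Z C] {d : ℕ}

/-- **Reduced norms are continuous at one.** -/
theorem nrd_near (hdeg : finrank Z C = d ^ 2) {W : Set Z} (hW : W ∈ nb k Z) :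
    ∃ V ∈ nb k C, ∀ g ∈ V, ∀ c : Z, HasNrd Z d g c → c ∈ W := by
  obtain ⟨N, _, _, _, _, ⟨f⟩⟩ := exists_galois_split' (K := Z) (D := C) hdeg
  let _ : Algebra k N := ((algebraMap Z N).comp (algebraMap k Z)).toAlgebra
  have : IsScalarTower k Z N := IsScalarTower.of_algebraMap_eq fun _ => rfl
  have : FiniteDimensional k N := FiniteDimensional.trans k Z N
  obtain ⟨W', hW', h1⟩ := nb_comap k (IsScalarTower.toAlgHom k Z N).toLinearMap
    (map_one (algebraMap Z N)) (algebraMap Z N).injective hW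
  let tC : TopologicalSpace C := moduleTopology k C
  have hC : IsModuleTopology k C := ⟨rfl⟩
  let tN : TopologicalSpace N := moduleTopology k N
  have hN : IsModuleTopology k N := ⟨rfl⟩
  have hNr : IsTopologicalRing N := IsModuleTopology.isTopologicalRing k N
  have hc : Continuous fun x : C => f x := by
    refine continuous_matrix fun i j => ?_
    exact IsModuleTopology.continuous_of_linearMap
      (((Matrix.entryLinearMap Z N i j).comp f.toLinearMap).restrictScalars k)
  have h2 := (hc.matrix_det).tendsto 1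
  rw [map_one, Matrix.det_one] at h2
  refine ⟨_, h2 hW', fun g hg c hgc => h1 c ?_⟩
  change (f g).det ∈ W' at hg
  rw [hgc N f] at hg
  exact hg

end nrd

/-- **The root trick.** -/
theorem rootP {k : Type} [Field k] [Infinite k] [TopologicalSpace k]
    [IsTopologicalDivisionRing k] [T2Space k] {q : k → ℝ} (hq : UN q) (hq1 : q 1 = 1)
    (hb : (𝓝 (0 : k)).HasBasis (fun ε : ℝ => 0 < ε) fun ε => {x | q x < ε}) {M : ℕ}
    (hM : (M : k) ≠ 0) : RootP k M := by
  intro Z _ _ _ C _ _ _ _ _ _ d hdeg hd V hV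
  have : FiniteDimensional k C := FiniteDimensional.trans k Z C
  have : Infinite Z := Infinite.of_injective _ (algebraMap k Z).injective
  have : NeZero (finrank k C) := ⟨finrank_pos.ne'⟩
  have hMZ : (M : Z) ≠ 0 := by
    have h1 := (_root_.map_ne_zero (algebraMap k Z)).mpr hM
    rwa [map_natCast] at h1
  let b := finBasis k C
  have hp := un_mn b hq
  obtain ⟨ε₂, hε₂, hV'⟩ := exists_mn hq hb b hV
  obtain ⟨ε, hεdef⟩ : ∃ ε, ε = min ε₂ 1 := ⟨_, rfl⟩
  have hε : 0 < ε := by rw [hεdef]; exact lt_min hε₂ one_pos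
  have hε1 : ε ≤ 1 := by rw [hεdef]; exact min_le_right _ _
  have hε2 : ε ≤ ε₂ := by rw [hεdef]; exact min_le_left _ _
  obtain ⟨δ, hδ, h⟩ := root_core hdeg hp (mn_one b hq hq1) hd hMZ (by
    intro ε hε
    have h1 : {c : Z | mn q b (algebraMap Z C c - 1) < ε} ∈ nb k Z :=
      (nb_alg k (IsScalarTower.toAlgHom k Z C)) (mn_mem hb b hε)
    obtain ⟨V', hV', h2⟩ := nrd_near (k := k) hdeg h1
    obtain ⟨δ, hδ, h3⟩ := exists_mn hq hb b hV'
    exact ⟨δ, hδ, fun g c hg hgc => h2 g (h3 g hg) c hgc⟩) hε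
  filter_upwards [mn_mem hb b hδ, mn_mem hb b hε] with t ht ht' ht1 O hO
  obtain ⟨r, hr, hO'⟩ := exists_mn hq hb b hO
  obtain ⟨y, hyA, hy, hy1, hys⟩ := h t ht ht1 r hr
  refine ⟨1, y, hyA, Nat.coprime_one_left M, fun i _ => ?_, fun i _ => ?_, hy1, ?_⟩
  · exact hV' _ ((hp.near_pow hε hε1 ht' i).trans_le hε2)
  · exact hV' _ ((hp.near_pow hε hε1 hy i).trans_le hε2)
  · rw [pow_one]
    exact hO' _ hys

/-- **The Frobenius trick** (no condition on the degree). -/
theorem frobP {k : Type} [Field k] [TopologicalSpace k] [IsTopologicalDivisionRing k] [T2Space k]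
    {q : k → ℝ} (hq : UN q)
    (hb : (𝓝 (0 : k)).HasBasis (fun ε : ℝ => 0 < ε) fun ε => {x | q x < ε}) {ℓ : ℕ}
    (hℓ : ℓ.Prime) [CharP k ℓ] {M : ℕ} (hM : Nat.Coprime ℓ M) {C : Type} [DivisionRing C]
    [Algebra k C] [FiniteDimensional k C] {V : Set C} (hV : V ∈ nb k C) :
    ∀ᶠ t in nb k C, ∀ O ∈ nb k C, ∃ N : ℕ, Nat.Coprime N M ∧ (∀ i : ℕ, t ^ i ∈ V) ∧
      t ^ N ∈ O := by
  have : NeZero (finrank k C) := ⟨finrank_pos.ne'⟩
  have : CharP C ℓ := charP_of_injective_algebraMap (algebraMap k C).injective ℓ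
  have : Fact ℓ.Prime := ⟨hℓ⟩
  let b := finBasis k C
  have hp := un_mn b hq
  obtain ⟨ε₂, hε₂, hV'⟩ := exists_mn hq hb b hV
  obtain ⟨ε, hεdef⟩ : ∃ ε, ε = min ε₂ (1 / 2) := ⟨_, rfl⟩
  have hε : 0 < ε := by rw [hεdef]; exact lt_min hε₂ (by norm_num)
  have hε1 : ε ≤ 1 / 2 := by rw [hεdef]; exact min_le_right _ _
  have hε2 : ε ≤ ε₂ := by rw [hεdef]; exact min_le_left _ _
  filter_upwards [mn_mem hb b hε] with t ht O hO
  obtain ⟨r, hr, hO'⟩ := exists_mn hq hb b hO
  obtain ⟨s, hs⟩ := exists_pow_lt_of_lt_one hr (show (1 / 2 : ℝ) < 1 by norm_num)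
  refine ⟨ℓ ^ s, hM.pow_left s, fun i => ?_, hO' _ ?_⟩
  · exact hV' _ ((hp.near_pow hε (hε1.trans (by norm_num)) ht i).trans_le hε2)
  · have h1 : t ^ ℓ ^ s - 1 = (t - 1) ^ ℓ ^ s := by
      rw [sub_pow_char_pow_of_commute _ _ (Commute.one_right t), one_pow]
    have h2 : ∀ m : ℕ, mn q b ((t - 1) ^ m) ≤ (1 / 2) ^ m := by
      intro m
      induction m with
      | zero => rw [pow_zero, pow_zero]; exact hp.one
      | succ m ih =>
        rw [pow_succ, pow_succ]
        exact hp.mul_le ih (ht.le.trans hε1)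
    rw [h1]
    refine (h2 _).trans_lt (lt_of_le_of_lt ?_ hs)
    exact pow_le_pow_of_le_one (by norm_num) (by norm_num) (Nat.lt_pow_self hℓ.one_lt).le

end Vale.Agent.P011.H996.Odd
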