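import Vale.Agent.P011.H996.Odd.Root
import Vale.Agent.P011.H505.WangB
import Vale.Agent.P011.W.Nrd

/-!
The root trick.  An element of reduced norm one near one is, up to elements of its field
arbitrarily near one, the `M`-th power of an element of its field of reduced norm one near one.
A homomorphism of finite exponent near one which kills, in every maximal subfield, the elements of
norm one in some neighbourhood of one kills all elements of reduced norm one in one neighbourhood.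
-/

open Module

namespace Vale.Agent.P011.H996.Odd

open Vale.Agent.P011.W (HasNrd exists_maxfield deg_pos)
open Vale.Agent.P011.H505.Wang (hasNrd_norm)

section

variable {D E : Type} [DivisionRing D] [CommGroup E] {p : D → ℝ} (hp : UN p)

include hp

/-- Powers of an element near one. -/
theorem psi_pow {ε : ℝ} (hε0 : 0 < ε) (hε : ε ≤ 1) {Ψ : D → E}
    (hmul : ∀ g h, p (g - 1) < ε → p (h - 1) < ε → Ψ (g * h) = Ψ g * Ψ h) {g : D}
    (hg : p (g - 1) < ε) (k : ℕ) : Ψ (g ^ k) = Ψ g ^ k := by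
  have h1 : p ((1 : D) - 1) < ε := by rw [sub_self, hp.zero]; exact hε0
  have hone : Ψ 1 = 1 := by
    have h2 := hmul 1 1 h1 h1
    rw [mul_one] at h2
    exact mul_eq_left.mp h2.symm
  induction k with
  | zero => rw [pow_zero, pow_zero, hone]
  | succ k ih => rw [pow_succ, pow_succ, hmul _ _ (hp.near_pow hε0 hε hg k) hg, ih]

end

theorem norm_inv_field {K L : Type} [Field K] [Field L] [Algebra K L] [FiniteDimensional K L]
    (x : L) : Algebra.norm K x⁻¹ = (Algebra.norm K x)⁻¹ := by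
  rcases eq_or_ne x 0 with rfl | hx
  · rw [inv_zero, Algebra.norm_zero, inv_zero]
  · apply eq_inv_of_mul_eq_one_left
    rw [← map_mul, inv_mul_cancel₀ hx, map_one]

theorem hasNrd_pow {K D : Type} [Field K] [DivisionRing D] [Algebra K D] {n : ℕ} {t : D} {y : K}
    (h : HasNrd K n t y) (k : ℕ) : HasNrd K n (t ^ k) (y ^ k) := by
  intro Ω _ _ f
  rw [map_pow, Matrix.det_pow, h, map_pow]

section

variable {K D : Type} [Field K] [Infinite K] [DivisionRing D] [Algebra K D]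
  [FiniteDimensional K D] [Algebra.IsCentral K D] {n : ℕ} {p : D → ℝ}

/-- **The root trick.** -/
theorem root_core (hdeg : finrank K D = n ^ 2) (hp : UN p) (hp1 : p 1 = 1) {M : ℕ}
    (hn0 : (n : K) ≠ 0) (hM : (M : K) ≠ 0)
    (hN : ∀ ε : ℝ, 0 < ε → ∃ δ : ℝ, 0 < δ ∧ ∀ (g : D) (c : K), p (g - 1) < δ →
      HasNrd K n g c → p (algebraMap K D c - 1) < ε)
    {ε₀ : ℝ} (hε₀ : 0 < ε₀) :
    ∃ δ : ℝ, 0 < δ ∧ ∀ g : D, p (g - 1) < δ → HasNrd K n g 1 → ∀ r₀ : ℝ, 0 < r₀ →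
      ∃ y ∈ Algebra.adjoin K {g}, p (y - 1) < ε₀ ∧ HasNrd K n y 1 ∧
        p (g * (y ^ M)⁻¹ - 1) < r₀ := by
  obtain ⟨ε₁, hε₁⟩ : ∃ ε₁, ε₁ = min ε₀ 1 := ⟨_, rfl⟩
  have hε₁0 : 0 < ε₁ := by rw [hε₁]; exact lt_min hε₀ one_pos
  have hε₁1 : ε₁ ≤ 1 := by rw [hε₁]; exact min_le_right _ _
  have hε₁2 : ε₁ ≤ ε₀ := by rw [hε₁]; exact min_le_left _ _
  obtain ⟨q, hq⟩ : ∃ q, q = max 1 (p ((M * n : ℕ) : D)⁻¹) := ⟨_, rfl⟩
  have hq1 : 1 ≤ q := by rw [hq]; exact le_max_left _ _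
  have hq2 : p ((M * n : ℕ) : D)⁻¹ ≤ q := by rw [hq]; exact le_max_right _ _
  have hq0 : 0 < q := one_pos.trans_le hq1
  have hMnK : ((M * n : ℕ) : K) ≠ 0 := by
    rw [Nat.cast_mul]
    exact mul_ne_zero hM hn0
  obtain ⟨ρ, hρ⟩ : ∃ ρ, ρ = min ε₁ (1 / (2 * q)) := ⟨_, rfl⟩
  have hρ0 : 0 < ρ := by rw [hρ]; exact lt_min hε₁0 (by positivity)
  have hρ1 : ρ ≤ ε₁ := by rw [hρ]; exact min_le_left _ _
  have hρ2 : ρ ≤ 1 / (2 * q) := by rw [hρ]; exact min_le_right _ _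
  obtain ⟨δN, hδN0, hδN⟩ := hN ρ hρ0
  obtain ⟨ε, hε⟩ : ∃ ε, ε = min ε₁ δN := ⟨_, rfl⟩
  have hε0 : 0 < ε := by rw [hε]; exact lt_min hε₁0 hδN0
  have hεε₁ : ε ≤ ε₁ := by rw [hε]; exact min_le_left _ _
  have hεδ : ε ≤ δN := by rw [hε]; exact min_le_right _ _
  have hεone : ε ≤ 1 := hεε₁.trans hε₁1
  obtain ⟨δ, hδ⟩ : ∃ δ, δ = min (ε / (2 * q)) (1 / (2 * q ^ 2)) := ⟨_, rfl⟩
  have hδ0 : 0 < δ := by rw [hδ]; exact lt_min (by positivity) (by positivity)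
  have hδ1 : 2 * q ^ 2 * δ ≤ 1 := by
    have h1 : δ ≤ 1 / (2 * q ^ 2) := by rw [hδ]; exact min_le_right _ _
    rw [le_div_iff₀ (by positivity)] at h1
    linarith
  have hδ2 : q * δ < ε := by
    have h1 : δ ≤ ε / (2 * q) := by rw [hδ]; exact min_le_left _ _
    rw [le_div_iff₀ (by positivity)] at h1
    nlinarith
  have hδone : δ < 1 := by nlinarith
  refine ⟨δ, hδ0, fun g hg hg1 r₀ hr₀ => ?_⟩
  obtain ⟨L, _, _, _, j, t, hL, rfl⟩ := exists_maxfield hdeg g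
  have hn : 0 < n := deg_pos hdeg
  have hpj : UN fun x : L => p (j x) := hp.comp (j : L →+* D)
  have hpj1 : (fun x : L => p (j x)) 1 = 1 := by
    change p (j 1) = 1
    rw [map_one, hp1]
  have hpK : UN fun x : K => p (algebraMap K D x) := hp.comp (algebraMap K D)
  have hpK1 : (fun x : K => p (algebraMap K D x)) 1 = 1 := by
    change p (algebraMap K D 1) = 1
    rw [map_one, hp1]
  have hnorm : ∀ x : L, HasNrd K n (j x) (Algebra.norm K x) := fun x => hasNrd_norm hdeg hL j x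
  have ht1 : Algebra.norm K t = 1 := (hnorm t).unique hdeg hg1
  -- the field generated by `t`
  obtain ⟨L₀, hL₀⟩ : ∃ L₀ : IntermediateField K L, L₀ = IntermediateField.adjoin K {t} := ⟨_, rfl⟩
  have htL₀ : t ∈ L₀ := by
    rw [hL₀]
    exact IntermediateField.mem_adjoin_simple_self K t
  have hmemA : ∀ x ∈ L₀, j x ∈ Algebra.adjoin K {j t} := by
    intro x hx
    have h1 : L₀.toSubalgebra = Algebra.adjoin K {t} := by
      rw [hL₀]
      exact IntermediateField.adjoin_simple_toSubalgebra_of_isAlgebraic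
        (Algebra.IsAlgebraic.isAlgebraic t)
    have h2 : x ∈ Algebra.adjoin K {t} := by
      rw [← h1]
      exact hx
    have h3 : j x ∈ (Algebra.adjoin K {t}).map j := ⟨x, h2, rfl⟩
    rwa [AlgHom.map_adjoin, Set.image_singleton] at h3
  -- the radii
  obtain ⟨r, hr⟩ : ∃ r, r = min r₀ ε₁ := ⟨_, rfl⟩
  have hr0 : 0 < r := by rw [hr]; exact lt_min hr₀ hε₁0
  have hr1 : r ≤ r₀ := by rw [hr]; exact min_le_left _ _
  have hr2 : r ≤ ε₁ := by rw [hr]; exact min_le_right _ _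
  obtain ⟨δ', hδ'0, hδ'⟩ := hN (r / (2 * q)) (by positivity)
  obtain ⟨η, hη⟩ : ∃ η, η = min r δ' := ⟨_, rfl⟩
  have hη0 : 0 < η := by rw [hη]; exact lt_min hr0 hδ'0
  have hη1 : η ≤ r := by rw [hη]; exact min_le_left _ _
  have hη2 : η ≤ δ' := by rw [hη]; exact min_le_right _ _
  have hMnL : ((M * n : ℕ) : L₀) ≠ 0 := by
    have h1 := (_root_.map_ne_zero (algebraMap K L₀)).mpr hMnK
    rwa [map_natCast] at h1
  have hjt : p (j t - 1) < δ := hg
  have hpL : UN fun x : L₀ => p (j (x : L)) := hpj.comp (algebraMap L₀ L)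
  have hpL1 : (fun x : L₀ => p (j (x : L))) 1 = 1 := hpj1
  have hqL : (fun x : L₀ => p (j (x : L))) ((M * n : ℕ) : L₀)⁻¹ ≤ q := by
    have h1 : ((((M * n : ℕ) : L₀)⁻¹ : L₀) : L) = ((M * n : ℕ) : L)⁻¹ := by
      push_cast
      rfl
    change p (j ((((M * n : ℕ) : L₀)⁻¹ : L₀) : L)) ≤ q
    rw [h1, map_inv₀, map_natCast]
    exact hq2
  obtain ⟨x₀, hx₀, hxt₀⟩ := hpL.exists_root hpL1 hMnL hq1 hqL hδ0 hδ1 hδ2 hεone
    (t := ⟨t, htL₀⟩) (by
      change p (j (t - 1)) ≤ δ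
      rw [map_sub, map_one]
      exact hjt.le) hη0
  obtain ⟨x, hxdef⟩ : ∃ x : L, x = x₀ := ⟨_, rfl⟩
  have hxL₀ : x ∈ L₀ := by rw [hxdef]; exact x₀.2
  have hx : p (j x - 1) < ε := by
    have h1 : p (j ((x₀ : L) - 1)) < ε := hx₀
    rwa [map_sub, map_one, ← hxdef] at h1
  have hxt : p (j (x ^ (M * n) - t)) < η := by
    have h1 : p (j ((x₀ : L) ^ (M * n) - t)) < η := hxt₀
    rwa [← hxdef] at h1
  have hjt' : (fun x : L => p (j x)) (t - 1) < δ := by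
    change p (j (t - 1)) < δ
    rw [map_sub, map_one]
    exact hg
  have hjx' : (fun x : L => p (j x)) (x - 1) < ε := by
    change p (j (x - 1)) < ε
    rw [map_sub, map_one]
    exact hx
  have ht0 : t ≠ 0 := hpj.ne_zero_of_near (hjt'.trans hδone) hpj1
  have hx0 : x ≠ 0 := hpj.ne_zero_of_near (hjx'.trans_le hεone) hpj1
  obtain ⟨c, hc⟩ : ∃ c, c = Algebra.norm K x := ⟨_, rfl⟩
  have hcρ : p (algebraMap K D c - 1) < ρ := hδN _ _ (hx.trans_le hεδ) (hc ▸ hnorm x)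
  have hc0 : c ≠ 0 := by
    rw [hc]
    exact Algebra.norm_ne_zero_iff.mpr hx0
  -- the element near one
  obtain ⟨z, hz⟩ : ∃ z, z = x ^ (M * n) * t⁻¹ := ⟨_, rfl⟩
  have hz0 : z ≠ 0 := by rw [hz]; exact mul_ne_zero (pow_ne_zero _ hx0) (inv_ne_zero ht0)
  have hzη : p (j z - 1) < η := by
    have h1 : j z - 1 = j ((x ^ (M * n) - t) * t⁻¹) := by
      rw [hz, sub_mul, mul_inv_cancel₀ ht0, map_sub, map_one]
    rw [h1]
    calc p (j ((x ^ (M * n) - t) * t⁻¹)) ≤ p (j (x ^ (M * n) - t)) * 1 :=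
          hpj.mul_le le_rfl (hpj.inv_le_one (hjt'.trans hδone))
      _ < η := by rw [mul_one]; exact hxt
  have hnz : Algebra.norm K z = c ^ (M * n) := by
    rw [hz, map_mul, map_pow, norm_inv_field, ht1, inv_one, mul_one, hc]
  have hcpow : p (algebraMap K D (c ^ (M * n)) - 1) < r / (2 * q) :=
    hδ' _ _ (hzη.trans_le hη2) (hnz ▸ hnorm z)
  have hqK : (fun x : K => p (algebraMap K D x)) ((M * n : ℕ) : K)⁻¹ ≤ q := by
    change p (algebraMap K D ((M * n : ℕ) : K)⁻¹) ≤ q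
    rw [map_inv₀, map_natCast]
    exact hq2
  have hcr : p (algebraMap K D c - 1) < r := by
    have h1 : p (algebraMap K D (c - 1)) < ρ := by rwa [map_sub, map_one]
    have h2 := hpK.near_of_pow_near hpK1 hMnK hqK (w := c) (by
      calc q * p (algebraMap K D (c - 1)) ≤ q * (1 / (2 * q)) := by
            gcongr
            exact (h1.trans_le hρ2).le
        _ < 1 := by
            rw [mul_one_div, div_lt_one (by positivity)]
            linarith) (h1.trans_le (hρ1.trans hε₁1))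
    have h3 : p (algebraMap K D (c - 1)) ≤ q * p (algebraMap K D (c ^ (M * n) - 1)) := h2
    rw [map_sub, map_one, map_sub, map_one] at h3
    calc p (algebraMap K D c - 1) ≤ q * p (algebraMap K D (c ^ (M * n)) - 1) := h3
      _ < q * (r / q) := by
          refine mul_lt_mul_of_pos_left (hcpow.trans ?_) hq0
          gcongr
          linarith
      _ = r := by field_simp
  -- the element of norm one
  obtain ⟨y, hy⟩ : ∃ y, y = x ^ n * algebraMap K L c⁻¹ := ⟨_, rfl⟩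
  have hy1 : Algebra.norm K y = 1 := by
    rw [hy, map_mul, map_pow, Algebra.norm_algebraMap, hL, ← hc, ← mul_pow,
      mul_inv_cancel₀ hc0, one_pow]
  have hjc : j (algebraMap K L c⁻¹) = (algebraMap K D c)⁻¹ := by
    rw [j.commutes, map_inv₀]
  have hcD0 : algebraMap K D c ≠ 0 := (_root_.map_ne_zero _).mpr hc0
  have hyε : p (j y - 1) < ε₁ := by
    rw [hy, map_mul, map_pow, hjc]
    refine hp.near_mul hε₁1 (hp.near_pow hε₁0 hε₁1 (hx.trans_le hεε₁) n) ?_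
    exact hp.near_inv hε₁1 hcD0 (hcρ.trans_le hρ1)
  have hy0 : y ≠ 0 := by
    rw [hy]
    exact mul_ne_zero (pow_ne_zero _ hx0) ((_root_.map_ne_zero _).mpr (inv_ne_zero hc0))
  have hsz : t * (y ^ M)⁻¹ = z⁻¹ * (algebraMap K L c) ^ M := by
    have hcL : algebraMap K L c ≠ 0 := (_root_.map_ne_zero _).mpr hc0
    rw [hz, hy, mul_pow, ← pow_mul, map_inv₀ (algebraMap K L), mul_comm n M, inv_pow, mul_inv,
      mul_inv, inv_inv, inv_inv]
    ring
  refine ⟨j y, hmemA y ?_, hyε.trans_le hε₁2, hy1 ▸ hnorm y, ?_⟩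
  · rw [hy]
    exact mul_mem (pow_mem hxL₀ n) (L₀.algebraMap_mem c⁻¹)
  · rw [← map_pow, ← map_inv₀, ← map_mul, hsz, map_mul, map_inv₀, map_pow, j.commutes]
    refine lt_of_lt_of_le ?_ hr1
    refine hp.near_mul (hr2.trans hε₁1) ?_ (hp.near_pow hr0 (hr2.trans hε₁1) hcr M)
    refine hp.near_inv (hr2.trans hε₁1) ?_ (hzη.trans_le hη1)
    rwa [Ne, map_eq_zero]

end

section

variable {K D E : Type} [Field K] [Infinite K] [DivisionRing D] [Algebra K D]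
  [FiniteDimensional K D] [Algebra.IsCentral K D] [CommGroup E] {n : ℕ} {p : D → ℝ}

/-- **From germs on maximal subfields to one neighbourhood.** -/
theorem rw_of_germs (hdeg : finrank K D = n ^ 2) (hp : UN p) (hp1 : p 1 = 1) {M : ℕ}
    (hn0 : (n : K) ≠ 0) (hM : (M : K) ≠ 0)
    (hN : ∀ ε : ℝ, 0 < ε → ∃ δ : ℝ, 0 < δ ∧ ∀ (g : D) (c : K), p (g - 1) < δ →
      HasNrd K n g c → p (algebraMap K D c - 1) < ε)
    {ε₀ : ℝ} (hε₀ : 0 < ε₀) {Ψ : D → E}
    (hmul : ∀ g h, p (g - 1) < ε₀ → p (h - 1) < ε₀ → Ψ (g * h) = Ψ g * Ψ h)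
    (hexp : ∀ g, p (g - 1) < ε₀ → Ψ g ^ M = 1)
    (hgerm : ∀ (L : Type) [Field L] [Algebra K L] [FiniteDimensional K L] (j : L →ₐ[K] D),
      finrank K L = n → ∃ δ : ℝ, 0 < δ ∧ ∀ t : L, Algebra.norm K t = 1 → p (j t - 1) < δ →
        Ψ (j t) = 1) :
    ∃ δ : ℝ, 0 < δ ∧ ∀ g : D, p (g - 1) < δ → HasNrd K n g 1 → Ψ g = 1 := by
  obtain ⟨ε₁, hε₁⟩ : ∃ ε₁, ε₁ = min ε₀ 1 := ⟨_, rfl⟩
  have hε₁0 : 0 < ε₁ := by rw [hε₁]; exact lt_min hε₀ one_pos
  have hε₁1 : ε₁ ≤ 1 := by rw [hε₁]; exact min_le_right _ _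
  have hε₁2 : ε₁ ≤ ε₀ := by rw [hε₁]; exact min_le_left _ _
  obtain ⟨δ, hδ0, hδ⟩ := root_core hdeg hp hp1 hn0 hM hN hε₁0
  refine ⟨δ, hδ0, fun g hg hg1 => ?_⟩
  obtain ⟨L, _, _, _, j, t, hL, rfl⟩ := exists_maxfield hdeg g
  have hnorm : ∀ x : L, HasNrd K n (j x) (Algebra.norm K x) := fun x => hasNrd_norm hdeg hL j x
  obtain ⟨δL, hδL0, hδL⟩ := hgerm L j hL
  obtain ⟨y, hyA, hyε, hy1, hys⟩ := hδ _ hg hg1 (min δL ε₁) (lt_min hδL0 hε₁0)
  have hjt0 : j t ≠ 0 := hg1.ne_zero hdeg one_ne_zero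
  have hy0 : y ≠ 0 := hy1.ne_zero hdeg one_ne_zero
  obtain ⟨s, hs⟩ : ∃ s : L, j s = j t * (y ^ M)⁻¹ := by
    have h1 : Algebra.adjoin K {j t} ≤ j.range := by
      rw [Algebra.adjoin_le_iff]
      rintro _ rfl
      exact ⟨t, rfl⟩
    obtain ⟨y', hy'⟩ := h1 hyA
    have hy'' : j y' = y := hy'
    exact ⟨t * (y' ^ M)⁻¹, by rw [map_mul, map_inv₀, map_pow, hy'']⟩
  have hyM0 : y ^ M ≠ 0 := pow_ne_zero _ hy0
  have hyM : HasNrd K n (y ^ M)⁻¹ 1 := by
    have h1 := (hasNrd_pow hy1 M).inv hyM0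
    rwa [one_pow, inv_one] at h1
  have hs1 : Algebra.norm K s = 1 := by
    have h1 := hg1.mul hyM
    rw [mul_one, ← hs] at h1
    exact (hnorm s).unique hdeg h1
  rw [← hs] at hys
  have hts : j t = j s * y ^ M := by
    rw [hs, inv_mul_cancel_right₀ hyM0]
  have hΨs : Ψ (j s) = 1 := hδL s hs1 (hys.trans_le (min_le_left _ _))
  have hmul' : ∀ g h, p (g - 1) < ε₁ → p (h - 1) < ε₁ → Ψ (g * h) = Ψ g * Ψ h :=
    fun g h hg hh => hmul g h (hg.trans_le hε₁2) (hh.trans_le hε₁2)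
  rw [hts, hmul' _ _ (hys.trans_le (min_le_right _ _)) (hp.near_pow hε₁0 hε₁1 hyε M), hΨs,
    one_mul, psi_pow hp hε₁0 hε₁1 hmul' hyε M, hexp _ (hyε.trans_le hε₁2)]

end

end Vale.Agent.P011.H996.Odd
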